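import Crest.Agent.X212.Wrd81.Ap
import Crest.Agent.X212.Wz78.Lich
import Crest.Agent.X212.Sob92.Fun
import Crest.Agent.X212.Wrd81.Gau

-- ▼ part X212/Nt92/Pt
section

/-!
# Row 212, NT (helper92), part 2: the words span the range of their projector at every point
-/

set_option autoImplicit false
set_option linter.unusedSectionVars false
noncomputable section
open scoped Manifold ContDiff Topology InnerProductSpace
open MeasureTheory Set Function Filter

namespace Crest.Agent.X212.Nt92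
open An Sob92 Wrd81

variable {E : Type} [NormedAddCommGroup E] [NormedSpace ℝ E] [FiniteDimensional ℝ E]
  [MeasurableSpace E] [BorelSpace E]
  {HM : Type} [TopologicalSpace HM] {I : ModelWithCorners ℝ E HM} [I.Boundaryless]
  {M : Type} [TopologicalSpace M] [ChartedSpace HM M] [IsManifold I ∞ M]
  [MeasurableSpace M] [T2Space M] [BorelSpace M] [SecondCountableTopology M]
  {ι : Type} [Fintype ι]
  {V : Type} [NormedAddCommGroup V] [InnerProductSpace ℝ V] [FiniteDimensional ℝ V]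
  {F : Fr I M ι} {A : ι → M → V →L[ℝ] V} {K Ω : Set M}

variable (F A) in
/-- smooth parallel orthogonal projectors -/
structure PP (q : M → V →L[ℝ] V) : Prop where
  sm : Sm I q
  symm : ∀ x v w, ⟪q x v, w⟫_ℝ = ⟪v, q x w⟫_ℝ
  idem : ∀ x v, q x (q x v) = q x v
  par : ∀ a x, F.D a q x = q x * A a x - A a x * q x

theorem _root_.Crest.Agent.X212.Wrd81.Prj.pp {𝒲 : Set (M → V)} {π : M → V →L[ℝ] V}
    (h : Prj K Ω F A 𝒲 π) : PP F A π := ⟨h.sm, h.symm, h.idem, h.par⟩

namespace PP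
variable {q : M → V →L[ℝ] V} (h : PP F A q)
include h

theorem norm_le (x : M) : ‖q x‖ ≤ 1 := by
  refine ContinuousLinearMap.opNorm_le_bound _ zero_le_one fun v => ?_
  have h1 : ‖q x v‖ ^ 2 ≤ ‖v‖ * ‖q x v‖ := by
    rw [← real_inner_self_eq_norm_sq, h.symm, h.idem]; exact real_inner_le_norm _ _
  rw [one_mul]
  exact le_of_not_gt fun hlt => by nlinarith [norm_nonneg v]

theorem itw (x : M) : Eqv71.Itw I F.e A A q x := fun a => by
  change F.D a q x + A a x * q x = q x * A a x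
  rw [h.par]; abel

theorem cov {u : M → V} (hu : Sm I u) (a : ι) (x : M) :
    cov F.toPre A a (fun y => q y (u y)) x = q x (cov F.toPre A a u x) :=
  (h.itw x).nab (md h.sm x) (md hu x) a

theorem lap1 (hA : ∀ a, Sm I (A a)) {u : M → V} (hu : Sm I u) (x : M) :
    lap1 F A (fun y => q y (u y)) x = q x (lap1 F A u x) := by
  simp only [lap1_eq, map_add]
  rw [Eqv71.itw_lap (Wz78.frm F) (.of_forall h.itw) (h.sm x) (fun a => hA a x) (hu x)]

theorem isRes (hA : ∀ a, Sm I (A a)) {s u : M → V} (k : F.IsRes A s u) :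
    F.IsRes A (fun x => q x (s x)) fun x => q x (u x) :=
  Mp86.isRes_map hA h.sm ⟨1, h.norm_le⟩ h.itw k

theorem sub {q' : M → V →L[ℝ] V} (k : PP F A q') (h1 : ∀ x v, q x (q' x v) = q' x v)
    (h2 : ∀ x v, q' x (q x v) = q' x v) : PP F A fun x => q x - q' x :=
  ⟨h.sm.sub k.sm, fun x v w => by simp [inner_sub_left, inner_sub_right, h.symm, k.symm],
    fun x v => by simp [h.idem, k.idem, h1, h2], fun a x => by
      have := Sob92.dv_sub (e := F.e a) (md h.sm x) (md k.sm x)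
      change Sob92.dv I (F.e a) (q - q') x = _
      rw [this]
      change F.D a q x - F.D a q' x = _
      rw [h.par, k.par, sub_mul, mul_sub]; abel⟩

end PP

theorem isRes_lap1 {w : M → V} (hw : Sm I w) (hc : HasCompactSupport w) :
    F.IsRes A (lap1 F A w) w :=
  ⟨hw, hw.continuous.bounded_above_of_compact_support hc, fun x => by rw [lap1_eq]⟩

theorem isRes_iff {s u : M → V} :
    F.IsRes A s u ↔ Sm I u ∧ (∃ C, ∀ x, ‖u x‖ ≤ C) ∧ lap1 F A u = s := by
  rw [lap1_eq, funext_iff]; rfl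

theorem val_GG (h : RH F A) (w : Tst I M V) :
    F.val 4 _ (GH F A 2 (GH F A 0 (F.toH 0 _ w))) = F.res A (F.res A w.1) := by
  have := FiniteDimensional.complete ℝ V
  obtain ⟨S, hS⟩ := h.sup
  have h0 := h.rsd.inf_j h.mc.sm w
  obtain ⟨h1, -, h3⟩ := h.res_rp h0 w.2.1 (h.rsd.rp_j w)
  obtain ⟨h4, -, h5⟩ := h.res_rp h0.G h1.1 h3
  have e : h.rsd.G (h.rsd.G (h.rsd.j w)) = F.incl 4 0 _ (GH F A 2 (GH F A 0 (F.toH 0 _ w))) :=
    h.G0_incl 2 _
  have h6 : F.Cb (F.val 4 _ (GH F A 2 (GH F A 0 (F.toH 0 _ w)))) := Cb_val hS le_rfl fun j hj => by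
    obtain ⟨g, hg⟩ := h.lev h0.G.G j
    exact ⟨g, incl_injective (Nat.zero_le 4) (by rw [incl_incl hj (Nat.zero_le _), hg]; exact e)⟩
  exact (rp_val hS le_rfl _).eq (e ▸ h5) h6.choose_spec.1 h4.1

/-- **The words span the range of their projector at every point.** -/
theorem prj_pt {𝒲 : Set (M → V)} {π : M → V →L[ℝ] V} (c : Fam K Ω F A 𝒲) (h : RH F A)
    (p : Prj K Ω F A 𝒲 π) {x : M} {v : V} (hv : ∀ w ∈ 𝒲, ⟪v, w x⟫_ℝ = 0) : π x v = 0 := by
  have := FiniteDimensional.complete ℝ V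
  let l : F.H 0 (triv M V) →L[ℝ] ℝ := innerSL ℝ v ∘L F.ev 4 _ x ∘L GH F A 2 ∘L GH F A 0
  have hl : ∀ w : Tst I M V, l (F.toH 0 _ w) = ⟪v, F.res A (F.res A w.1) x⟫_ℝ := fun w => by
    rw [← val_GG h w]; rfl
  obtain ⟨m, hm⟩ := (l2d V F.toPre).exists_mul p.sm p.pp.norm_le
  have h0 : (InnerProductSpace.toDual ℝ _).symm (l ∘L m) = 0 := by
    refine (l2d V F.toPre).eq_zero_of_orth (c.op.union c.cl.1.isOpen_compl)
      (measure_mono_null (fun y hy => by simpa [and_comm] using hy) c.null) fun φ hφ => ?_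
    rw [real_inner_comm, InnerProductSpace.toDual_symm_apply, ContinuousLinearMap.comp_apply, hm]
    have hs : tsupport (L2D.tstMul p.sm φ).1 ⊆ Ω := fun y hy =>
      (hφ (closure_mono (support_subset_iff'.2 fun z hz => by
        simp [L2D.tstMul, notMem_support.1 hz]) hy)).resolve_right fun h =>
        h (closure_minimal (fun z hz => by
          by_contra h; exact hz (by simp [L2D.tstMul, p.off z h])) c.cl.1 hy)
    obtain ⟨_, h2⟩ := mem_Ap.1 (p.ap 0 _ (L2D.tstMul p.sm φ).2 hs fun y => p.idem y _)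
    refine cl_le (U := l.ker) l.isClosed_ker ?_ h2
    rintro _ ⟨u, ⟨f, hf, w, hw, e⟩, rfl⟩
    change l _ = 0
    rw [hl, e]
    exact hv _ (c.res _ (c.res _ (c.mul f hf w hw)))
  obtain ⟨χ, hχ, h1⟩ := exists_tf (I := I) (O := univ) (x := x) univ_mem
  let u : Tst I M V := ⟨_, smul_mem_tst hχ.sm hχ.hcs (contMDiff_const (c := v))⟩
  let L := RsD.lapT (V := V) F h.mc.sm
  have e1 : ∀ w : Tst I M V, L2D.tstMul p.sm (L w) = L (L2D.tstMul p.sm w) := fun w =>
    Subtype.ext (funext fun y => (p.pp.lap1 h.mc.sm w.2.1 y).symm)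
  have e2 : ∀ w : Tst I M V, F.res A (L w).1 = w.1 := fun w =>
    Mp86.res_eq h.bmp h.mc (isRes_lap1 w.2.1 w.2.2.1)
  have h2 : l (m ((l2d V F.toPre).j (L (L u)))) = 0 := by
    rw [← ContinuousLinearMap.comp_apply, (LinearIsometryEquiv.map_eq_zero_iff _).1 h0]; rfl
  rw [hm, e1, e1] at h2
  have h3 := (hl _).symm.trans h2
  rw [e2, e2] at h3
  have h4 : ⟪v, π x v⟫_ℝ = 0 := by simpa [L2D.tstMul, u, h1] using h3
  rwa [← p.idem, ← p.symm, inner_self_eq_zero] at h4

/-- irreducibility of the bundle `q` over the piece `K` -/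
def Irr (F : Fr I M ι) (A : ι → M → V →L[ℝ] V) (K : Set M) (q : M → V →L[ℝ] V) : Prop :=
  ∀ π, PP F A π → (∀ x v, q x (π x v) = π x v) → (∀ x ∈ K, π x = 0) ∨ ∀ x ∈ K, π x = q x

/-- it is enough to check irreducibility under the curvature at one point -/
theorem irr_of_curv (hA : ∀ a, Sm I (A a)) (hK : IsPreconnected K) {q : M → V →L[ℝ] V}
    (hq : PP F A q) {y : M} (hy : y ∈ K)
    (h : ∀ T : V →L[ℝ] V, (∀ v, T (T v) = T v) → (∀ v, q y (T v) = T v) →
      (∀ v, T (q y v) = T v) →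
      (∀ a b, Wz78.curv I F.e F.c A a b y * T = T * Wz78.curv I F.e F.c A a b y) →
      T = 0 ∨ T = q y) : Irr F A K q := by
  intro π p h1
  have h2 : ∀ x v, π x (q x v) = π x v := fun x v =>
    ext_inner_right ℝ fun w => by rw [p.symm, hq.symm, h1, p.symm]
  refine (h _ (p.idem y) (h1 y) (h2 y) fun a b => (Wz78.frm F).curv_par (fun a => hA a y) (p.sm y)
    (fun a => .of_forall fun z => ?_) a b).imp
    (fun e x hx => zero_const p.sm.continuous p.idem hK hy hx e) fun e x hx => ?_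
  · change F.D a π z + _ = 0
    rw [p.par]; abel
  · have k := hq.sub p h1 h2
    exact (sub_eq_zero.1 (zero_const k.sm.continuous k.idem hK hy hx (sub_eq_zero.2 e.symm))).symm

end Crest.Agent.X212.Nt92
end
end

-- ▼ part X212/Nt92/Jet
section

/-!
# Row 212, NT (helper92), part 3: jets of words at an abelian point

A jet is a pair `(s, δ)`: the value of a word at the connection `A` and its derivative in the
direction `α`.  Either the derivatives of the words that vanish at `A` are dense, or `α` is exact.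
-/

set_option autoImplicit false
set_option linter.unusedSectionVars false
noncomputable section
open scoped Manifold ContDiff Topology InnerProductSpace
open MeasureTheory Set Function Filter

namespace Crest.Agent.X212.Nt92
open An Sob92 Wrd81

variable {E : Type} [NormedAddCommGroup E] [NormedSpace ℝ E] [FiniteDimensional ℝ E]
  [MeasurableSpace E] [BorelSpace E]
  {HM : Type} [TopologicalSpace HM] {I : ModelWithCorners ℝ E HM} [I.Boundaryless]
  {M : Type} [TopologicalSpace M] [ChartedSpace HM M] [IsManifold I ∞ M]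
  [MeasurableSpace M] [T2Space M] [BorelSpace M] [SecondCountableTopology M]
  {ι : Type} [Fintype ι]
  {V : Type} [NormedAddCommGroup V] [InnerProductSpace ℝ V] [FiniteDimensional ℝ V]
  {K Ω : Set M} {F : Fr I M ι} {A α : ι → M → V →L[ℝ] V}

variable (F A α) in
/-- the derivative of `1 + ∇^*∇` with respect to the connection -/
def dl (u : M → V) : M → V := fun x => -∑ a, (α a x (cov F.toPre A a u x) +
  cov F.toPre A a (fun y => α a y (u y)) x + F.dv a x • α a x (u x))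

/-- the scalar operator `∑ (D D + dv D)` -/
def Ls (F : Fr I M ι) (f : M → ℝ) : M → ℝ :=
  fun x => ∑ a, (F.D a (F.D a f) x + F.dv a x * F.D a f x)

theorem sm_Ls {f : M → ℝ} (hf : Sm I f) : Sm I (Ls F f) :=
  contMDiff_finsetSum fun a _ => (F.sm_D (F.sm_D hf a) a).add ((F.dv_sm a).mul (F.sm_D hf a))

theorem Ls_off {f : M → ℝ} {x : M} (hx : x ∉ tsupport f) : Ls F f x = 0 := by
  have h0 : f =ᶠ[𝓝 x] fun _ => 0 := notMem_tsupport_iff_eventuallyEq.1 hx
  have h1 : ∀ a, F.D a f =ᶠ[𝓝 x] fun _ => 0 := fun a => by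
    filter_upwards [h0.eventuallyEq_nhds] with y hy
    exact (Sob92.dv_congr hy).trans (congrFun (dv_const _) _)
  refine Finset.sum_eq_zero fun a _ => ?_
  rw [(h1 a).eq_of_nhds,
    show F.D a (F.D a f) x = 0 from (Sob92.dv_congr (h1 a)).trans (congrFun (dv_const _) _)]
  simp

theorem sm_dl (hA : ∀ a, Sm I (A a)) (hα : ∀ a, Sm I (α a)) {u : M → V} (hu : Sm I u) :
    Sm I (dl F A α u) :=
  (contMDiff_finsetSum fun a _ => (((hα a).clm_apply (sm_cov _ hA hu a)).add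
    (sm_cov _ hA ((hα a).clm_apply hu) a)).add (sm_smul (F.dv_sm a) ((hα a).clm_apply hu))).neg

theorem dl_zero : dl F A α 0 = 0 := funext fun x => by
  have : ∀ a, cov F.toPre A a (fun _ => (0 : V)) x = 0 := fun a => by
    simp [cov, Pre.D, dv_const]
  simp only [dl, Pi.zero_apply, map_zero, smul_zero, add_zero]
  rw [show (0 : M → V) = fun _ => 0 from rfl]
  simp [this]

theorem dl_add (hα : ∀ a, Sm I (α a)) {u v : M → V} (hu : Sm I u) (hv : Sm I v) :
    dl F A α (u + v) = dl F A α u + dl F A α v := funext fun x => by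
  have h1 : ∀ a, cov F.toPre A a (u + v) x = _ := fun a => cov_add _ A hu hv a x
  simp only [dl, Pi.add_apply, map_add, h1,
    fun a => cov_add F.toPre A ((hα a).clm_apply hu) ((hα a).clm_apply hv) a x, ← neg_add,
    ← Finset.sum_add_distrib, smul_add]
  congr 1
  exact Finset.sum_congr rfl fun a _ => by abel

theorem dl_smul (hα : ∀ a, Sm I (α a)) {f : M → ℝ} {u : M → V} (hf : Sm I f) (hu : Sm I u) (x : M) :
    dl F A α (fun y => f y • u y) x =
      f x • dl F A α u x - (2 : ℝ) • ∑ a, F.D a f x • α a x (u x) := by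
  simp only [dl, map_smul, map_add, cov_smul _ A hf hu,
    fun a => cov_smul F.toPre A hf ((hα a).clm_apply hu) a x, smul_neg, Finset.smul_sum,
    sub_eq_add_neg, ← neg_add, ← Finset.sum_add_distrib]
  congr 1
  exact Finset.sum_congr rfl fun a _ => by module

theorem dl_csmul (hα : ∀ a, Sm I (α a)) (r : ℝ) {u : M → V} (hu : Sm I u) :
    dl F A α (r • u) = r • dl F A α u := funext fun x => by
  have := dl_smul (F := F) (A := A) hα (f := fun _ => r) contMDiff_const hu x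
  simpa [Pre.D, dv_const, Pi.smul_def] using this

variable (K Ω F A α) in
/-- a space of jets of words -/
structure Jet (𝒥 : Submodule ℝ ((M → V) × (M → V))) : Prop where
  cl : IsClopen K
  op : IsOpen Ω
  sub : Ω ⊆ K
  null : F.μ (K \ Ω) = 0
  sα : ∀ a, Sm I (α a)
  sm : ∀ j ∈ 𝒥, Sm I j.1 ∧ Sm I j.2
  mul : ∀ f, Tf I Ω f → ∀ j ∈ 𝒥, (fun x => f x • j.1 x, fun x => f x • j.2 x) ∈ 𝒥
  res : ∀ j ∈ 𝒥, ∃ j' ∈ 𝒥, F.IsRes A j.1 j'.1 ∧ F.IsRes A (j.2 - dl F A α j'.1) j'.2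

/-- it is enough to check the closure properties on generators -/
theorem Jet.span (hA : ∀ a, Sm I (A a)) (cl : IsClopen K) (op : IsOpen Ω) (sub : Ω ⊆ K)
    (null : F.μ (K \ Ω) = 0) (sα : ∀ a, Sm I (α a)) {S : Set ((M → V) × (M → V))}
    (sm : ∀ j ∈ S, Sm I j.1 ∧ Sm I j.2)
    (mul : ∀ f, Tf I Ω f → ∀ j ∈ S, (fun x => f x • j.1 x, fun x => f x • j.2 x) ∈ S)
    (res : ∀ j ∈ S, ∃ j' ∈ S, F.IsRes A j.1 j'.1 ∧ F.IsRes A (j.2 - dl F A α j'.1) j'.2) :
    Jet K Ω F A α (Submodule.span ℝ S) := by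
  refine ⟨cl, op, sub, null, sα, fun j hj => ?_, fun f hf j hj => ?_, fun j hj => ?_⟩
  · induction hj using Submodule.span_induction with
    | mem j hj => exact sm j hj
    | zero => exact ⟨contMDiff_const, contMDiff_const⟩
    | add u v _ _ hu hv => exact ⟨hu.1.add hv.1, hu.2.add hv.2⟩
    | smul r u _ hu => exact ⟨sm_smul contMDiff_const hu.1, sm_smul contMDiff_const hu.2⟩
  · induction hj using Submodule.span_induction with
    | mem j hj => exact Submodule.subset_span (mul f hf j hj)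
    | zero => convert zero_mem (Submodule.span ℝ S) using 1; ext <;> simp
    | add u v _ _ hu hv => convert add_mem hu hv using 1; ext <;> simp
    | smul r u _ hu => convert Submodule.smul_mem _ r hu using 1; ext <;> simp [smul_comm r]
  · induction hj using Submodule.span_induction with
    | mem j hj => exact let ⟨j', h1, h2⟩ := res j hj; ⟨j', Submodule.subset_span h1, h2⟩
    | zero => exact ⟨0, zero_mem _, Mp86.isRes_zero, by
        rw [Prod.fst_zero, dl_zero, Prod.snd_zero, sub_zero]; exact Mp86.isRes_zero⟩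
    | add u v _ _ hu hv =>
      obtain ⟨u', a1, a2, a3⟩ := hu
      obtain ⟨v', b1, b2, b3⟩ := hv
      refine ⟨u' + v', add_mem a1 b1, Mp86.isRes_add hA a2 b2, ?_⟩
      rw [Prod.fst_add, dl_add sα a2.1 b2.1]
      convert Mp86.isRes_add hA a3 b3 using 1
      · funext x; simp only [Prod.snd_add, Pi.sub_apply, Pi.add_apply]; abel
      · rfl
    | smul r u _ hu =>
      obtain ⟨u', a1, a2, a3⟩ := hu
      refine ⟨r • u', Submodule.smul_mem _ r a1, Mp86.isRes_smul hA r a2, ?_⟩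
      rw [Prod.smul_fst, dl_csmul sα r a2.1]
      convert Mp86.isRes_smul hA r a3 using 1
      · funext x; simp only [Prod.smul_snd, Pi.sub_apply, Pi.smul_apply, smul_sub]
      · rfl

/-- the `q`-parts of the derivatives of the words which vanish at the point -/
def Nrm (𝒥 : Submodule ℝ ((M → V) × (M → V))) (q : M → V →L[ℝ] V) : Set (M → V) :=
  {w | ∃ δ, (0, δ) ∈ 𝒥 ∧ w = fun x => q x (δ x)}

variable (K F A) in
/-- all words are multiples of the parallel unit section `ξ` -/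
structure Abl (𝒥 : Submodule ℝ ((M → V) × (M → V))) (ξ : M → V) : Prop where
  sm : Sm I ξ
  par : ∀ a x, cov F.toPre A a ξ x = 0
  one : ∀ x ∈ K, ‖ξ x‖ = 1
  ax : ∀ j ∈ 𝒥, ∀ x ∈ K, j.1 x = ⟪ξ x, j.1 x⟫_ℝ • ξ x
  con : IsPreconnected K
  ne : ∃ j ∈ 𝒥, ∃ x ∈ K, j.1 x ≠ 0

namespace Jet
variable {𝒥 : Submodule ℝ ((M → V) × (M → V))} (c : Jet K Ω F A α 𝒥) (h : RH F A)
  {q : M → V →L[ℝ] V} {ξ : M → V}
include c h

theorem fam₁ : Fam K Ω F A (Prod.fst '' (𝒥 : Set ((M → V) × (M → V)))) := by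
  refine ⟨c.cl, c.op, c.sub, c.null, ?_, ?_, ?_⟩
  · rintro _ ⟨j, hj, rfl⟩; exact (c.sm j hj).1
  · rintro f hf _ ⟨j, hj, rfl⟩; exact ⟨_, c.mul f hf j hj, rfl⟩
  · rintro _ ⟨j, hj, rfl⟩
    obtain ⟨j', h1, h2, -⟩ := c.res j hj
    exact ⟨j', h1, (Mp86.res_eq h.bmp h.mc h2).symm⟩

theorem fam (hq : PP F A q) : Fam K Ω F A (Nrm 𝒥 q) := by
  refine ⟨c.cl, c.op, c.sub, c.null, ?_, ?_, ?_⟩
  · rintro _ ⟨δ, hδ, rfl⟩; exact hq.sm.clm_apply (c.sm _ hδ).2
  · rintro f hf _ ⟨δ, hδ, rfl⟩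
    refine ⟨fun x => f x • δ x, ?_, by simp⟩
    convert c.mul f hf _ hδ using 2
    funext x; simp
  · rintro _ ⟨δ, hδ, rfl⟩
    obtain ⟨⟨s', δ'⟩, h1, h2, h3⟩ := c.res _ hδ
    obtain rfl : s' = 0 := Mp86.isRes_unique h.bmp h.mc h2 Mp86.isRes_zero
    rw [dl_zero, sub_zero] at h3
    exact ⟨δ', h1, Mp86.res_eq h.bmp h.mc (hq.isRes h.mc.sm h3)⟩

variable (b : Abl K F A 𝒥 ξ)
include b

theorem exists_ne {x : M} (hx : x ∈ K) : ∃ j ∈ 𝒥, ⟪ξ x, j.1 x⟫_ℝ ≠ 0 := by
  by_contra hn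
  push Not at hn
  obtain ⟨π, p⟩ := (c.fam₁ h).exists_prj h
  obtain ⟨j, hj, y, hy, h0⟩ := b.ne
  refine p.ne_zero b.con ⟨j, hj, rfl⟩ hy h0 hx ?_
  ext v
  refine prj_pt (c.fam₁ h) h p ?_
  rintro _ ⟨j, hj, rfl⟩
  rw [b.ax j hj x hx, hn j hj, zero_smul, inner_zero_right]

variable (hq : PP F A q) (h0 : ∀ w ∈ Nrm 𝒥 q, ∀ x ∈ K, w x = 0)
include hq h0

theorem cross {j j' : (M → V) × (M → V)} (hj : j ∈ 𝒥) (hj' : j' ∈ 𝒥) : ∀ x ∈ K,
    ⟪ξ x, j'.1 x⟫_ℝ • q x (j.2 x) = ⟪ξ x, j.1 x⟫_ℝ • q x (j'.2 x) := by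
  have s1 := sm_inner b.sm (c.sm j hj).1
  have s2 := sm_inner b.sm (c.sm j' hj').1
  refine (c.fam₁ h).ext (sm_smul s2 (hq.sm.clm_apply (c.sm j hj).2)).continuous
    (sm_smul s1 (hq.sm.clm_apply (c.sm j' hj').2)).continuous c.cl.2 Subset.rfl fun x hx => ?_
  obtain ⟨f, hf, f1⟩ := exists_tf (I := I) (c.op.mem_nhds hx.2)
  have h1 := sub_mem (c.mul _ (hf.mul s2) j hj) (c.mul _ (hf.mul s1) j' hj')
  have h2 := h0 _ ⟨fun y => (⟪ξ y, j'.1 y⟫_ℝ * f y) • j.2 y - (⟪ξ y, j.1 y⟫_ℝ * f y) • j'.2 y, by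
    convert h1 using 1
    refine Prod.ext (funext fun y => ?_) rfl
    by_cases hy : y ∈ K
    · simp only [Pi.zero_apply, Prod.fst_sub, Pi.sub_apply]
      have e1 := b.ax j hj y hy
      have e2 := b.ax j' hj' y hy
      generalize ⟪ξ y, j.1 y⟫_ℝ = s at e1 ⊢
      generalize ⟪ξ y, j'.1 y⟫_ℝ = t at e2 ⊢
      rw [e1, e2]
      module
    · simp [image_eq_zero_of_notMem_tsupport fun h => hy (c.sub (hf.sub h))], rfl⟩ x hx.1
  simpa [f1, sub_eq_zero] using h2

theorem exists_quot : ∃ ζ : M → V, Sm I ζ ∧ (∀ x ∉ K, ζ x = 0) ∧ (∀ x, q x (ζ x) = ζ x) ∧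
    ∀ j ∈ 𝒥, ∀ x ∈ K, q x (j.2 x) = ⟪ξ x, j.1 x⟫_ℝ • ζ x := by
  classical
  choose j hj hne using fun x (hx : x ∈ K) => c.exists_ne h b hx
  let ζ : M → V := fun x =>
    if hx : x ∈ K then (⟪ξ x, (j x hx).1 x⟫_ℝ)⁻¹ • q x ((j x hx).2 x) else 0
  have h1 : ∀ i ∈ 𝒥, ∀ x ∈ K, q x (i.2 x) = ⟪ξ x, i.1 x⟫_ℝ • ζ x := fun i hi x hx => by
    simp only [ζ, dif_pos hx]
    rw [smul_comm, ← c.cross h b hq h0 hi (hj x hx) x hx, inv_smul_smul₀ (hne x hx)]
  refine ⟨ζ, fun x => ?_, fun x hx => dif_neg hx, fun x => ?_, h1⟩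
  · by_cases hx : x ∈ K
    · have s1 := sm_inner b.sm (c.sm _ (hj x hx)).1
      refine (((s1 x).inv₀ (hne x hx)).smul
        (hq.sm.clm_apply (c.sm _ (hj x hx)).2 x)).congr_of_eventuallyEq ?_
      filter_upwards [c.cl.2.mem_nhds hx, s1.continuous.continuousAt.eventually_ne (hne x hx)]
        with y h2 h3
      rw [Pi.smul_apply', h1 _ (hj x hx) y h2, inv_smul_smul₀ h3]
    · refine (contMDiffAt_const (c := (0 : V))).congr_of_eventuallyEq ?_
      filter_upwards [c.cl.1.isOpen_compl.mem_nhds hx] with y hy using dif_neg hy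
  · by_cases hx : x ∈ K <;> simp [ζ, hx, hq.idem]

/-- **If the normal derivatives vanish then the direction is exact.** -/
theorem exact (hP : ∀ a x, ∑ l, F.P a l x • α l x = α a x) :
    ∃ ζ : M → V, Sm I ζ ∧ (∀ x ∉ K, ζ x = 0) ∧ (∀ x, q x (ζ x) = ζ x) ∧
      (∀ j ∈ 𝒥, ∀ x ∈ K, q x (j.2 x) = ⟪ξ x, j.1 x⟫_ℝ • ζ x) ∧
      ∀ a, ∀ x ∈ K, cov F.toPre A a ζ x = -q x (α a x (ξ x)) := by
  obtain ⟨ζ, z1, z2, z3, z4⟩ := c.exists_quot h b hq h0
  refine ⟨ζ, z1, z2, z3, z4, fun a => (c.fam₁ h).ext (sm_cov _ h.mc.sm z1 a).continuous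
    (hq.sm.clm_apply ((c.sα a).clm_apply b.sm)).neg.continuous c.cl.2 Subset.rfl fun x hx => ?_⟩
  obtain ⟨j, hj, hne⟩ := c.exists_ne h b hx.1
  have s1 := sm_inner b.sm (c.sm j hj).1
  set O := Ω ∩ {y | ⟪ξ y, j.1 y⟫_ℝ ≠ 0}
  have hO : O ∈ 𝓝 x := inter_mem (c.op.mem_nhds hx.2)
    (s1.continuous.continuousAt.eventually_ne hne)
  have l1 : ∀ y, lap1 F A ξ y = ξ y := fun y => by
    have : ∀ a, cov F.toPre A a ξ = fun _ => 0 := fun a => funext (b.par a)
    simp only [lap1, this]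
    simp [cov, Pre.D, dv_const]
  have key : ∀ φ, Tf I O φ → φ x • (lap1 F A ζ x + q x (dl F A α ξ x) - ζ x) =
      (2 : ℝ) • ∑ a, F.D a φ x • (cov F.toPre A a ζ x + q x (α a x (ξ x))) := by
    intro φ hφ
    have hψ : ∀ y ∉ tsupport φ, φ y - Ls F φ y = 0 := fun y hy => by
      rw [image_eq_zero_of_notMem_tsupport hy, Ls_off hy, sub_zero]
    let f : M → ℝ := fun y => (φ y - Ls F φ y) * (⟪ξ y, j.1 y⟫_ℝ)⁻¹
    have hs : tsupport f ⊆ tsupport φ := closure_minimal (fun y hy => by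
      by_contra h; exact hy (by simp [f, hψ y h])) (isClosed_tsupport _)
    have hf : Tf I Ω f := by
      refine ⟨contMDiff_of_tsupport fun y hy => ((hφ.sm.sub (sm_Ls hφ.sm)) y).mul
        ((s1 y).inv₀ (hφ.sub (hs hy)).2), hφ.hcs.of_isClosed_subset (isClosed_tsupport _) hs,
        fun y hy => (hφ.sub (hs hy)).1⟩
    have hfh : ∀ y, f y * ⟪ξ y, j.1 y⟫_ℝ = φ y - Ls F φ y := fun y => by
      by_cases hy : y ∈ tsupport φ
      · exact inv_mul_cancel_right₀ (hφ.sub hy).2 _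
      · simp [f, hψ y hy]
    have hoff : ∀ y ∉ K, y ∉ tsupport φ := fun y hy h => hy (c.sub (hφ.sub h).1)
    obtain ⟨⟨s', δ'⟩, h1, h2, h3⟩ := c.res _ (c.mul f hf j hj)
    have e1 : lap1 F A (fun y => φ y • ξ y) = fun y => f y • j.1 y := funext fun y => by
      rw [lap1_smul F h.mc.sm hφ.sm b.sm, l1]
      simp only [b.par, smul_zero, Finset.sum_const_zero, sub_zero]
      rw [← sub_smul]
      change (φ y - Ls F φ y) • ξ y = _
      by_cases hy : y ∈ K
      · rw [b.ax j hj y hy, smul_smul, hfh]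
      · simp [f, hψ y (hoff y hy)]
    obtain rfl : s' = fun y => φ y • ξ y := Mp86.isRes_unique h.bmp h.mc h2
      (e1 ▸ isRes_lap1 (sm_smul hφ.sm b.sm) hφ.hcs.smul_right)
    have e2 : (fun y => q y (δ' y)) =ᶠ[𝓝 x] fun y => φ y • ζ y := by
      filter_upwards [c.cl.2.mem_nhds hx.1] with y hy
      rw [z4 _ h1 y hy, real_inner_smul_right, real_inner_self_eq_norm_sq, b.one y hy]; simp
    have e3 : lap1 F A (fun y => q y (δ' y)) x = lap1 F A (fun y => φ y • ζ y) x := by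
      simp only [lap1_eq, e2.eq_of_nhds]
      exact congrArg _ (congrArg Neg.neg (Mp86.LA_congr e2))
    rw [hq.lap1 h.mc.sm h3.1, (isRes_iff.1 h3).2.2, lap1_smul F h.mc.sm hφ.sm z1] at e3
    simp only [Pi.sub_apply, dl_smul c.sα hφ.sm b.sm, map_sub, map_smul, map_sum,
      z4 j hj x hx.1, smul_smul, hfh] at e3
    simp only [smul_add, smul_sub, Finset.sum_add_distrib]
    rw [sub_smul] at e3
    change _ = _ - _ - Ls F φ x • ζ x at e3
    linear_combination (norm := module) -e3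
  obtain ⟨χ, c1, c2, c3, c4⟩ := exists_bump (I := I) hO
  have k0 := key χ ⟨c1, c2, c3⟩
  have d0 : ∀ a, F.D a χ x = 0 := fun a => (Sob92.dv_congr c4).trans (congrFun (dv_const _) _)
  simp only [c4.eq_of_nhds, Pi.one_apply, one_smul, d0, zero_smul, Finset.sum_const_zero,
    smul_zero] at k0
  obtain ⟨η, hη⟩ := exists_covector F x a
  obtain ⟨φ, p1, p2, p3, p4⟩ := exists_fun_deriv (I := I) hO η
  have k1 := key φ ⟨p1, p2, p3⟩
  have d1 : ∀ l, F.D l φ x = F.P a l x := fun l => (p4 _).trans (hη l)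
  rw [k0, smul_zero, eq_comm, smul_eq_zero_iff_right two_ne_zero] at k1
  simp only [d1, cov, smul_add, Finset.sum_add_distrib, P_D] at k1
  rw [eq_neg_iff_add_eq_zero, ← k1, cov, ← h.proj a x, ← hP a x]
  simp

end Jet

/-- the direction `α` is exact in the bundle `q` -/
def Exa (K : Set M) (F : Fr I M ι) (A α : ι → M → V →L[ℝ] V) (q : M → V →L[ℝ] V) (ξ : M → V) :
    Prop := ∃ ζ : M → V, Sm I ζ ∧ (∀ x ∉ K, ζ x = 0) ∧ (∀ x, q x (ζ x) = ζ x) ∧
      ∀ a, ∀ x ∈ K, cov F.toPre A a ζ x = -q x (α a x (ξ x))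

/-- **The alternative**: the projector of the normal derivatives is `q`, or `α` is exact. -/
theorem Jet.alt {𝒥 : Submodule ℝ ((M → V) × (M → V))} (c : Jet K Ω F A α 𝒥) (h : RH F A)
    {q : M → V →L[ℝ] V} {ξ : M → V} (b : Abl K F A 𝒥 ξ) (hq : PP F A q) (hi : Irr F A K q)
    (hP : ∀ a x, ∑ l, F.P a l x • α l x = α a x) :
    (∃ π, Prj K Ω F A (Nrm 𝒥 q) π ∧ ∀ x ∈ K, π x = q x) ∨ Exa K F A α q ξ := by
  obtain ⟨π, p⟩ := (c.fam h hq).exists_prj h
  refine (hi π p.pp fun x v => (p.le c.cl.2 hq.sm hq.symm ?_ x v).2).symm.imp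
    (fun e => ⟨π, p, e⟩) fun e => ?_
  · rintro _ ⟨δ, -, rfl⟩ x; exact hq.idem x _
  · obtain ⟨ζ, z1, z2, z3, -, z4⟩ :=
      c.exact h b hq (fun w hw x hx => by rw [← p.fix w hw x hx, e x hx]; rfl) hP
    exact ⟨ζ, z1, z2, z3, z4⟩

end Crest.Agent.X212.Nt92
end
end

-- ▼ part X212/Nt92/Der
section

/-!
# Row 212, NT (helper92), part 4: uniform derivatives of words along a line of connections
-/

set_option autoImplicit false
set_option linter.unusedSectionVars false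
noncomputable section
open scoped Manifold ContDiff Topology InnerProductSpace
open MeasureTheory Set Function Filter

namespace Crest.Agent.X212.Nt92
open An Sob92 Wrd81

variable {E : Type} [NormedAddCommGroup E] [NormedSpace ℝ E] [FiniteDimensional ℝ E]
  [MeasurableSpace E] [BorelSpace E]
  {HM : Type} [TopologicalSpace HM] {I : ModelWithCorners ℝ E HM} [I.Boundaryless]
  {M : Type} [TopologicalSpace M] [ChartedSpace HM M] [IsManifold I ∞ M]
  [MeasurableSpace M] [T2Space M] [BorelSpace M] [SecondCountableTopology M]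
  {ι : Type} [Fintype ι]
  {V : Type} [NormedAddCommGroup V] [InnerProductSpace ℝ V] [FiniteDimensional ℝ V]
  {W : Type} [NormedAddCommGroup W] [InnerProductSpace ℝ W] [FiniteDimensional ℝ W]
  {F : Fr I M ι} {A α : ι → M → V →L[ℝ] V} {C : ℕ → ℝ} {u v : M → V}

variable (F) in
/-- smooth functions all of whose derivatives are square integrable -/
structure HI (u : M → V) : Prop where
  sm : Sm I u
  fl : ∀ k, FL F.toPre k u

namespace HI

theorem of_hcs (hu : Sm I u) (hc : HasCompactSupport u) : HI F u :=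
  ⟨hu, fun k => FL_of_hcs k hu hc⟩

theorem zero : HI F (0 : M → V) := of_hcs contMDiff_const HasCompactSupport.zero

theorem add (h : HI F u) (k : HI F v) : HI F (u + v) :=
  ⟨h.sm.add k.sm, fun j => ML.add F.sm h.sm k.sm (h.fl j) (k.fl j)⟩

theorem app {T : M → V →L[ℝ] W} (hT : F.Cb T) (h : HI F u) : HI F fun x => T x (u x) :=
  let ⟨_, hC⟩ := hT
  ⟨hC.1.clm_apply h.sm, fun j =>
    (N2_mul (ContinuousLinearMap.id ℝ (V →L[ℝ] W)) hC.1 h.sm (hC.2 j) (h.fl j)).1⟩

theorem smul {f : M → ℝ} (hf : F.Cb f) (h : HI F u) : HI F fun x => f x • u x :=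
  h.app (Cb_smul hf (Cb_const (ContinuousLinearMap.id ℝ V)))

theorem neg (h : HI F u) : HI F (-u) := h.app (Cb_const (-ContinuousLinearMap.id ℝ V))

theorem sub (h : HI F u) (k : HI F v) : HI F (u - v) := by
  rw [sub_eq_add_neg]; exact h.add k.neg

theorem D (h : HI F u) (a : ι) : HI F (F.D a u) := ⟨F.sm_D h.sm a, fun j => (h.fl (j + 1)).2 a⟩

theorem sum {κ : Type*} (s : Finset κ) {u : κ → M → V} (h : ∀ i, HI F (u i)) :
    HI F fun x => ∑ i ∈ s, u i x := by
  classical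
  induction s using Finset.induction_on with
  | empty => simp only [Finset.sum_empty]; exact zero
  | insert i s hi ih => simp only [Finset.sum_insert hi]; exact (h i).add ih

theorem cov (hA : ∀ a, F.Cb (A a)) (h : HI F u) (a : ι) : HI F (cov F.toPre A a u) :=
  (h.D a).add (h.app (hA a))

theorem dl (hF : F.Tame C) (hA : ∀ a, F.Cb (A a)) (hα : ∀ a, F.Cb (α a)) (h : HI F u) :
    HI F (dl F A α u) :=
  (sum _ fun a => (((h.cov hA a).app (hα a)).add ((h.app (hα a)).cov hA a)).add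
    ((h.app (hα a)).smul ⟨_, hF.dv a⟩)).neg

theorem is (hF : F.Tame C) (h : HI F u) (k : ℕ) : ∃ y, Is F.toPre k (triv M V) y u :=
  exists_Is (Exh.of_tame hF) h.sm (h.fl k) fun _ => rfl

theorem cb (hF : F.Tame C) (h : HI F u) : F.Cb u := by
  have := FiniteDimensional.complete ℝ V
  obtain ⟨y, hy⟩ := h.is hF 4
  rw [← hy.val_eq (Sup.of_tame hF) le_rfl h.sm.continuous]
  refine Cb_val (Sup.of_tame hF) le_rfl fun j hj => ?_
  obtain ⟨g, hg⟩ := h.is hF j
  exact ⟨g, (hg.incl hj).unique hy⟩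

theorem bdd (hF : F.Tame C) (h : HI F u) : ∃ c, 0 ≤ c ∧ ∀ x, ‖u x‖ ≤ c :=
  let ⟨D, hD⟩ := h.cb hF
  ⟨|D 0|, abs_nonneg _, fun x => (CB_zero.1 (hD.2 0) x).trans (le_abs_self _)⟩

/-- the resolvent preserves the class -/
theorem res (hF : F.Tame C) (r : RH F A) (h : HI F u) :
    F.IsRes A u (F.res A u) ∧ HI F (F.res A u) := by
  have := FiniteDimensional.complete ℝ V
  obtain ⟨y, hy⟩ := h.is hF 0
  have key : ∀ k, ∀ z : F.H (2 * k) (triv M V), ∃ w, F.incl (2 * k) 0 _ z = (r.rsd.G ^ k) w := by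
    intro k
    induction k with
    | zero => exact fun z => ⟨z, incl_self z⟩
    | succ k ih =>
      intro z
      obtain ⟨w, hw⟩ := ih (QH F A (2 * k) z)
      refine ⟨w, ?_⟩
      rw [pow_succ', mul_apply_eq_comp, ← hw]
      exact ((r.G0_incl _ _).trans (by rw [r.ell.G_Q]; rfl)).symm
  have hi : r.rsd.Inf y := fun k => by
    obtain ⟨z, hz⟩ := h.is hF (2 * k)
    rw [← (hz.incl (Nat.zero_le _)).unique hy]
    exact key k z
  have hr : r.rsd.Rp y u := fun φ => by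
    have := hy.inner_toH φ
    rw [incl_self] at this
    simp only [real_inner_comm (u _), real_inner_comm y]
    exact this
  obtain ⟨h1, -, h3⟩ := r.res_rp hi h.sm hr
  refine ⟨h1, h1.1, fun k => ?_⟩
  obtain ⟨z, hz⟩ := r.lev hi.G (k + 4)
  have e : F.val (k + 4) _ z = F.res A u := (rp_val (Sup.of_tame hF) (by omega) z).eq (hz ▸ h3)
    (Cb_val (Sup.of_tame hF) (by omega) fun j hj => by
      obtain ⟨g, hg⟩ := r.lev hi.G j
      exact ⟨g, incl_injective (Nat.zero_le _)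
        (by rw [incl_incl hj (Nat.zero_le _), hg]; exact hz.symm)⟩).choose_spec.1 h1.1
  exact ((e ▸ Is.val (Sup.of_tame hF) (by omega) z).FL h1.1).of_le (by omega)

end HI

variable (F) in
/-- bounded metric connection forms -/
structure Cn (A : ι → M → V →L[ℝ] V) : Prop where
  cb : ∀ a, F.Cb (A a)
  sk : ∀ a x, Wz78.Skew (A a x)
  proj : ∀ a x, ∑ b, F.P a b x • A b x = A a x

theorem Cn.sm (h : Cn F A) (a : ι) : Sm I (A a) := (h.cb a).choose_spec.1

theorem Cn.rh (h : Cn F A) (hF : F.Tame C) : RH F A := rh_of_tame hF h.cb h.sk h.proj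

/-- the line of connections -/
def ln (A α : ι → M → V →L[ℝ] V) (t : ℝ) : ι → M → V →L[ℝ] V := fun a x => A a x + t • α a x

theorem ln_zero : ln A α 0 = A := by funext a x; simp [ln]

theorem Cn.ln (h : Cn F A) (k : Cn F α) (t : ℝ) : Cn F (ln A α t) :=
  ⟨fun a => Cb_add (h.cb a) (Cb_smul (Cb_const t) (k.cb a)), fun a x v w => by
    simp only [Nt92.ln, add_apply, smul_apply,
      inner_add_left, inner_add_right, real_inner_smul_left, real_inner_smul_right, h.sk a x v w,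
      k.sk a x v w]; ring, fun a x => by
    simp only [Nt92.ln, smul_add, Finset.sum_add_distrib, h.proj, smul_comm _ t, ← Finset.smul_sum,
      k.proj]⟩

theorem lap1_ln (hA : ∀ a, Sm I (A a)) (hα : ∀ a, Sm I (α a)) (hu : Sm I u) (t : ℝ) (x : M) :
    lap1 F (ln A α t) u x =
      lap1 F A u x + t • dl F A α u x - t ^ 2 • ∑ a, α a x (α a x (u x)) := by
  have h1 : ∀ a (w : M → V), cov F.toPre (ln A α t) a w =
      fun y => cov F.toPre A a w y + t • α a y (w y) := fun a w => funext fun y => by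
    simp [cov, ln, add_assoc]
  have h2 : ∀ a, cov F.toPre A a (fun y => cov F.toPre A a u y + t • α a y (u y)) x =
      cov F.toPre A a (cov F.toPre A a u) x + t • cov F.toPre A a (fun y => α a y (u y)) x :=
    fun a => by
      rw [cov_add _ A (sm_cov _ hA hu a) (sm_smul contMDiff_const ((hα a).clm_apply hu)),
        cov_smul _ A contMDiff_const ((hα a).clm_apply hu)]
      simp [Pre.D, dv_const]
  simp only [lap1, dl, h1, h2, map_add, map_smul, smul_neg, Finset.smul_sum, sub_eq_add_neg,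
    add_assoc, ← neg_add, ← Finset.sum_add_distrib]
  congr 2
  exact Finset.sum_congr rfl fun a _ => by module

/-- uniform differentiability at `t = 0` -/
def UD (w : ℝ → M → V) (δ : M → V) : Prop :=
  ∀ ε > 0, ∀ᶠ t in 𝓝 (0 : ℝ), ∀ x, ‖w t x - w 0 x - t • δ x‖ ≤ ε * |t|

theorem UD.hasDerivAt {w : ℝ → M → V} {δ : M → V} (h : UD w δ) (x : M) :
    HasDerivAt (fun t => w t x) (δ x) 0 :=
  hasDerivAt_iff_isLittleO_nhds_zero.2 (Asymptotics.isLittleO_iff.2 fun ε hε =>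
    (h ε hε).mono fun t ht => by simpa using ht x)

theorem UD.of_sq {w : ℝ → M → V} {δ : M → V} {w' : ℝ → M → W} {δ' : M → W} (h : UD w δ)
    {c d : ℝ} (hc : 0 ≤ c) (hd : 0 ≤ d) (hb : ∀ t, |t| ≤ 1 → ∀ m, (∀ x, ‖w t x - w 0 x - t • δ x‖ ≤ m) →
      ∀ x, ‖w' t x - w' 0 x - t • δ' x‖ ≤ c * m + d * t ^ 2) : UD w' δ' := fun ε hε => by
  have h1 : Tendsto (fun t : ℝ => |t|) (𝓝 0) (𝓝 0) := continuous_abs.tendsto' _ _ abs_zero
  filter_upwards [h (ε / (2 * (c + 1))) (by positivity), h1.eventually_le_const one_pos,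
    h1.eventually_le_const (show 0 < ε / (2 * (d + 1)) by positivity)] with t a1 a2 a3 x
  refine (hb t a2 _ a1 x).trans ?_
  rw [le_div_iff₀ (by positivity)] at a3
  have a4 : c * (ε / (2 * (c + 1))) ≤ ε / 2 := by
    rw [← mul_div_assoc, div_le_div_iff₀ (by positivity) two_pos]; nlinarith
  have a5 := abs_nonneg t
  rw [← sq_abs, ← mul_assoc]
  nlinarith [mul_le_mul_of_nonneg_right a4 a5, mul_le_mul_of_nonneg_right a3 a5]

theorem UD.const (u : M → V) : UD (fun _ => u) 0 := fun ε hε =>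
  .of_forall fun t x => by simpa using by positivity

variable (F) in
/-- families with a uniform derivative -/
structure DJ (w : ℝ → M → V) (δ : M → V) : Prop where
  hi : ∀ t, HI F (w t)
  hd : HI F δ
  ud : UD w δ

namespace DJ
variable {w : ℝ → M → V} {δ : M → V}

theorem zero : DJ F (fun _ _ => (0 : V)) 0 := ⟨fun _ => HI.zero, HI.zero, UD.const _⟩

theorem app (h : DJ F w δ) {T : M → V →L[ℝ] W} (hT : F.Cb T) :
    DJ F (fun t x => T x (w t x)) fun x => T x (δ x) := by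
  obtain ⟨D, hD⟩ := id hT
  refine ⟨fun t => (h.hi t).app hT, h.hd.app hT,
    h.ud.of_sq (abs_nonneg (D 0)) le_rfl fun t _ m hm x => ?_⟩
  rw [← map_smul, ← map_sub, ← map_sub, zero_mul, add_zero]
  exact ((T x).le_opNorm _).trans (mul_le_mul ((CB_zero.1 (hD.2 0) x).trans (le_abs_self _))
    (hm x) (norm_nonneg _) (abs_nonneg _))

theorem smul (h : DJ F w δ) {f : M → ℝ} (hf : F.Cb f) :
    DJ F (fun t x => f x • w t x) fun x => f x • δ x :=
  h.app (Cb_smul hf (Cb_const (ContinuousLinearMap.id ℝ V)))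

theorem quad (hF : F.Tame C) {s r : M → V} (hs : HI F s) (hd : HI F δ) (hr : HI F r) :
    DJ F (fun t x => s x + t • δ x + t ^ 2 • r x) δ := by
  obtain ⟨c, c0, hc⟩ := hr.bdd hF
  refine ⟨fun t => (hs.add (hd.smul (Cb_const t))).add (hr.smul (Cb_const _)), hd,
    (UD.const s).of_sq le_rfl c0 fun t _ m _ x => ?_⟩
  rw [show s x + t • δ x + t ^ 2 • r x - (s x + (0 : ℝ) • δ x + (0 : ℝ) ^ 2 • r x) - t • δ x =
    t ^ 2 • r x by module, norm_smul, Real.norm_of_nonneg (sq_nonneg t), zero_mul, zero_add,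
    mul_comm]
  exact mul_le_mul_of_nonneg_right (hc x) (sq_nonneg t)

/-- **The derivative of the resolvent.** -/
theorem res (h : DJ F w δ) (hF : F.Tame C) (hA : Cn F A) (hα : Cn F α) :
    DJ F (fun t => F.res (ln A α t) (w t)) (F.res A (δ - dl F A α (F.res A (w 0)))) := by
  have r := fun t => (hA.ln hα t).rh hF
  have r0 := hA.rh hF
  have h1 := fun t => (h.hi t).res hF (r t)
  obtain ⟨a1, a2⟩ := (h.hi 0).res hF r0
  obtain ⟨b1, b2⟩ := (h.hd.sub (a2.dl hF hA.cb hα.cb)).res hF r0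
  set u := F.res A (w 0)
  set v := F.res A (δ - dl F A α u)
  have aa : ∀ {u : M → V}, HI F u → HI F fun x => ∑ a, α a x (α a x (u x)) := fun hu =>
    HI.sum _ fun a => (hu.app (hα.cb a)).app (hα.cb a)
  obtain ⟨c, c0, hc⟩ := ((aa a2).sub (b2.dl hF hA.cb hα.cb)).bdd hF
  obtain ⟨d, d0, hd⟩ := (aa b2).bdd hF
  refine ⟨fun t => (h1 t).2, b2, h.ud.of_sq zero_le_one (add_nonneg c0 d0) fun t ht m hm x => ?_⟩
  have k : ∀ {u : M → V}, HI F u → F.IsRes (ln A α t) (lap1 F (ln A α t) u) u := fun hu =>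
    isRes_iff.2 ⟨hu.sm, (hu.bdd hF).imp fun _ h => h.2, rfl⟩
  have k1 := Mp86.isRes_add (r t).mc.sm (Mp86.isRes_add (r t).mc.sm (h1 t).1
    (Mp86.isRes_smul (r t).mc.sm (-1) (k a2))) (Mp86.isRes_smul (r t).mc.sm (-t) (k b2))
  have k2 := Mp86.isRes_norm_le (r t).bmp (r t).mc k1 (m := 1 * m + (c + d) * t ^ 2) (fun y => ?_) x
  · rw [ln_zero]
    convert k2 using 2
    module
  · rw [lap1_ln hA.sm hα.sm a2.sm, lap1_ln hA.sm hα.sm b2.sm, (isRes_iff.1 a1).2.2,
      (isRes_iff.1 b1).2.2]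
    have e1 := hc y
    simp only [Pi.sub_apply] at e1 ⊢
    generalize ∑ a, α a y (α a y (u y)) = p at e1
    have e2 := hd y
    generalize ∑ a, α a y (α a y (v y)) = p' at e2
    rw [show w t y + (-1 : ℝ) • (w 0 y + t • dl F A α u y - t ^ 2 • p) +
      -t • (δ y - dl F A α u y + t • dl F A α v y - t ^ 2 • p') =
      (w t y - w 0 y - t • δ y) + (t ^ 2 • (p - dl F A α v y) + t ^ 2 • t • p') by module]
    refine (norm_add_le _ _).trans (add_le_add (by rw [one_mul]; exact hm y) ?_)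
    rw [← smul_add, norm_smul, Real.norm_of_nonneg (sq_nonneg t), mul_comm]
    refine mul_le_mul_of_nonneg_right ((norm_add_le _ _).trans (add_le_add e1 ?_)) (sq_nonneg t)
    rw [norm_smul, Real.norm_eq_abs]
    nlinarith [norm_nonneg p']

end DJ

end Crest.Agent.X212.Nt92
end
end

-- ▼ part X212/Nt92/Gen

/-!
# Row 212, NT (helper92), part 5: examples of parallel projectors, export to two-forms
-/

set_option autoImplicit false
set_option linter.unusedSectionVars false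
noncomputable section
open scoped Manifold ContDiff Topology InnerProductSpace
open MeasureTheory Set Function Filter

namespace Crest.Agent.X212.Nt92
open An Sob92 Wrd81

variable {E : Type} [NormedAddCommGroup E] [NormedSpace ℝ E] [FiniteDimensional ℝ E]
  [MeasurableSpace E] [BorelSpace E]
  {HM : Type} [TopologicalSpace HM] {I : ModelWithCorners ℝ E HM} [I.Boundaryless]
  {M : Type} [TopologicalSpace M] [ChartedSpace HM M] [IsManifold I ∞ M]
  [MeasurableSpace M] [T2Space M] [BorelSpace M] [SecondCountableTopology M]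
  {ι : Type} [Fintype ι] {ι' : Type} [Fintype ι'] {lam : Type} [Fintype lam]
  {V : Type} [NormedAddCommGroup V] [InnerProductSpace ℝ V] [FiniteDimensional ℝ V]
  {K Ω : Set M} {F : Fr I M ι} {A : ι → M → V →L[ℝ] V}

theorem lap1_congr {u v : M → V} {x : M} (h : u =ᶠ[𝓝 x] v) : lap1 F A u x = lap1 F A v x := by
  simp only [lap1_eq, h.eq_of_nhds]
  exact congrArg _ (congrArg Neg.neg (Mp86.LA_congr h))

theorem lap1_zero (x : M) : lap1 F A (fun _ => (0 : V)) x = 0 := by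
  rw [lap1_eq]; exact (zero_add _).trans (Mp86.lap_zero x)

theorem zero_of_isRes (hK : IsOpen K) {s u : M → V} (h : F.IsRes A s u) (h0 : ∀ x ∈ K, u x = 0) :
    ∀ x ∈ K, s x = 0 := fun x hx => by
  rw [← (isRes_iff.1 h).2.2, lap1_congr (v := fun _ => 0) (eventually_of_mem (hK.mem_nhds hx) h0),
    lap1_zero]

theorem PP.of_nabE {q : M → V →L[ℝ] V} (hq : Sm I q) (hs : ∀ x v w, ⟪q x v, w⟫_ℝ = ⟪v, q x w⟫_ℝ)
    (hi : ∀ x v, q x (q x v) = q x v) (hp : ∀ a x, Wz78.nabE I F.e A a q x = 0) : PP F A q :=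
  ⟨hq, hs, hi, fun a x => (eq_neg_of_add_eq_zero_left (hp a x)).trans (neg_sub _ _)⟩

theorem PP.ind (hK : IsClopen K) :
    PP F A fun y => K.indicator (1 : M → ℝ) y • (1 : V →L[ℝ] V) := by
  refine ⟨sm_smul (sm_ind hK) sm_one, fun x v w => by
    simp [real_inner_smul_left, real_inner_smul_right], fun x v => ?_, fun a x => ?_⟩
  · by_cases hx : x ∈ K <;> simp [hx]
  · rw [Pre.D_def, dv_congr (v := fun _ => K.indicator (1 : M → ℝ) x • (1 : V →L[ℝ] V))
      ((ind_ev hK x).mono fun z hz => by rw [hz]), dv_const]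
    simp

variable (V) in
/-- `(u, v) ↦ ⟪u, ·⟫ v` -/
def rkB : V →L[ℝ] V →L[ℝ] V →L[ℝ] V := ContinuousLinearMap.smulRightL ℝ V V ∘L innerSL ℝ

@[simp] theorem rkB_apply (u v w : V) : rkB V u v w = ⟪u, w⟫_ℝ • v := rfl

theorem PP.rk {ξ : M → V} (hA : ∀ a x, Wz78.Skew (A a x)) (hξ : Sm I ξ)
    (hp : ∀ a x, Wrd81.cov F.toPre A a ξ x = 0) (h1 : ∀ x, ‖ξ x‖ = 1 ∨ ξ x = 0) :
    PP F A fun x => rkB V (ξ x) (ξ x) := by
  refine ⟨((rkB V).contMDiff.comp hξ).clm_apply hξ, fun x v w => ?_, fun x v => ?_, fun a x => ?_⟩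
  · simp only [rkB_apply, real_inner_smul_left, real_inner_smul_right, real_inner_comm v, mul_comm]
  · rcases h1 x with h | h <;> simp [h]
  · rw [Pre.D_def, dv_bil (rkB V) (md hξ x) (md hξ x),
      show dv I (F.e a) ξ x = -A a x (ξ x) from eq_neg_of_add_eq_zero_left (hp a x)]
    ext v
    simp [hA a x _ v, sub_eq_add_neg]

theorem PP.res_zero {q : M → V →L[ℝ] V} (hq : PP F A q) (h : RH F A) {s u : M → V}
    (k : F.IsRes A s u) (h0 : ∀ x, q x (s x) = 0) (x : M) : q x (u x) = 0 := by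
  have := hq.isRes h.mc.sm k
  simp only [h0] at this
  exact congrFun (Mp86.isRes_unique h.bmp h.mc this Mp86.isRes_zero) x

theorem sm_idx {B : Base M ι lam} (hB : B.OK I) {q : M → V →L[ℝ] V} (hq : Sm I q) :
    Sm I fun x => idx (B.sd x) (q x) := Std94.Kl.idx (K := Std94.smAll I)
  (fun _ _ => ((((hB.sP _ _).mul (hB.sP _ _)).sub ((hB.sP _ _).mul (hB.sP _ _))).div_const 2
    |>.add ((hB.so _ _ _ _).div_const 2)).div_const 2) hq

/-- density of the words gives density of the self-dual forms `(dg ∧ dh)⁺ ⊗ w` -/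
theorem ap_two {B : Base M ι lam} (hB : B.OK I) (hP : F.P = B.P) {𝒲 : Set (M → V)}
    {π q : M → V →L[ℝ] V} (c : Fam K Ω F A 𝒲) (p : Prj K Ω F A 𝒲 π) (hq : PP F A q)
    (e : ∀ x ∈ K, π x = q x) {O : Set M} (hO : IsOpen O) (hΩ : O ⊆ Ω) (F' : Pre I M ι') (k : ℕ)
    {u : M → Fm (ι × ι) V} (hu : Sm I u) (hc : HasCompactSupport u) (hs : tsupport u ⊆ O)
    (hqu : ∀ x, idx (B.sd x) (q x) (u x) = u x) :
    u ∈ Ap F' k {v | ∃ g g', Tf I O g ∧ Tf I O g' ∧ ∃ w ∈ 𝒲,
      v = fun x => idx (B.sd x) (q x) (wg F V g g' x (w x))} := by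
  refine mem_two hB hP hq.sm hq.symm hq.idem hO (fun g hg g' hg' f hf b => ?_) hu hc hs hqu
  have hT := (sm_idx hB hq.sm).clm_comp (sm_wg (F := F) (V := V) hg.sm hg'.sm)
  convert p.loc (F' := F') (k := k) c.op hT (fun f hf w hw => ?_) (hf.mono hΩ)
    (contMDiff_const (c := b)) using 1
  · funext x
    by_cases hx : x ∈ K
    · ext1 s
      simp [e x hx, wg_apply, hq.idem]
    · simp [image_eq_zero_of_notMem_tsupport fun h => hx (c.sub (hΩ (hf.sub h)))]
  · exact Ap.of_mem (smul_mem_tst hf.sm hf.hcs (hT.clm_apply (c.sm w hw)))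
      ⟨g, g', hg, hg', _, c.mul f hf w hw, funext fun x => by simp⟩

/-- an idempotent of a plane which commutes with a complex structure -/
theorem zero_or_all {S : Submodule ℝ V} (hS : Module.finrank ℝ S = 3) {ξ : V} (hξ : ξ ∈ S)
    (h1 : ‖ξ‖ = 1) {J T q : V →L[ℝ] V} (hJ : Wz78.Skew J) (J0 : J ξ = 0) (JS : ∀ v ∈ S, J v ∈ S)
    (Jn : ∀ v ∈ S, J v = 0 → ⟪ξ, v⟫_ℝ = 0 → v = 0) (qS : ∀ v, q v ∈ S) (q0 : ∀ v, ⟪ξ, q v⟫_ℝ = 0)
    (hT : ∀ v, T (T v) = T v) (h2 : ∀ v, q (T v) = T v) (h3 : ∀ v, T (q v) = T v)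
    (h4 : ∀ v, T (J (T v)) = J (T v)) : T = 0 ∨ T = q := by
  refine or_iff_not_imp_left.2 fun h0 => ?_
  obtain ⟨u, hu⟩ : ∃ u, T u ≠ 0 := by
    by_contra! h; exact h0 (ContinuousLinearMap.ext h)
  have m : T u ∈ S := h2 u ▸ qS _
  have o1 : ⟪ξ, T u⟫_ℝ = 0 := h2 u ▸ q0 _
  have o2 : ⟪ξ, J (T u)⟫_ℝ = 0 := by
    have := hJ ξ (T u); rw [J0, inner_zero_left] at this; linarith
  have o3 : ⟪T u, J (T u)⟫_ℝ = 0 := by
    have := hJ (T u) (T u); rw [real_inner_comm] at this; linarith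
  let b : Fin 3 → S := ![⟨ξ, hξ⟩, ⟨T u, m⟩, ⟨J (T u), JS _ m⟩]
  have li : LinearIndependent ℝ b := by
    refine linearIndependent_of_ne_zero_of_inner_eq_zero (𝕜 := ℝ) (fun i => ?_) fun i j hij => ?_
    · fin_cases i
      · exact fun h => by simp [show ξ = 0 from congrArg Subtype.val h] at h1
      · exact fun h => hu (congrArg Subtype.val h)
      · exact fun h => hu (Jn _ m (congrArg Subtype.val h) o1)
    · fin_cases i <;> fin_cases j <;>
        first | exact absurd rfl hij | assumption | (rw [real_inner_comm]; assumption)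
  ext1 v
  have hv : (⟨q v, qS v⟩ : S) ∈ Submodule.span ℝ (range b) :=
    li.span_eq_top_of_card_eq_finrank (by simp [hS]) ▸ Submodule.mem_top
  obtain ⟨c, hc⟩ := (Submodule.mem_span_range_iff_exists_fun ℝ).1 hv
  have e : c 0 • ξ + c 1 • T u + c 2 • J (T u) = q v := by
    simpa [Fin.sum_univ_three, b] using congrArg Subtype.val hc
  have c0 : c 0 = 0 := by
    have := q0 v
    rw [← e] at this
    simpa [inner_add_right, real_inner_smul_right, o1, o2, h1] using this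
  rw [← h3, ← e]
  simp [c0, hT, h4]

end Crest.Agent.X212.Nt92
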